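import Crest.Agent.R163.Q3.D.P6.S0
import Crest.Agent.R163.Q3.D.P6.H

set_option autoImplicit false
set_option maxRecDepth 100000
set_option linter.all false
set_option Elab.async false

namespace Crest.Agent.R163.P6

theorem p0_9_5 : Ok2 par f9 Box3.unit (selB2 0 (selB2 0 C0 1018517988167243043134222844204689080525734196832968125318056597397977860010363227822800895) 268433407) :=
  Ok2.run hw hf9 ⟨363,25,25,10,13⟩ 58
    (.split 0 (.part 30 (.chk false 0) (.chk true 0)) (.part 30 (.chk false 0) (.split 1 (.chk true 0) (.chk true 0))))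
    (by decide +kernel)

theorem p0_10_0 : Ok2 par f10 Box3.unit (selB2 1 (selB2 0 (selB2 1 C0 1018517988167243043134222844204689079759486426400012860272058621089568525112010879550537727) 2658455991569831745807614120560689151) 2305843009213693951) :=
  Ok2.run hw hf10 ⟨262,19,19,13,13⟩ 58
    (.chk false 0)
    (by decide +kernel)

theorem p0_10_1 : Ok2 par f10 Box3.unit (selB2 0 (selB2 0 (selB2 1 C0 1018517988167243043134222844204689079759486426400012860272058621089568525112010879550537727) 2658455991569831745807614120560689151) 2305843009213693951) :=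
  Ok2.run hw hf10 ⟨262,19,19,13,13⟩ 58
    (.chk false 0)
    (by decide +kernel)

theorem p0_10_2 : Ok2 par f10 Box3.unit (selB2 1 (selB2 1 (selB2 1 C0 1018517988167243043134222844204689079759486426400012860272058621089568525112010879550537727) 2658455991569831745807614120560689151) 1152921504606846975) :=
  Ok2.run hw hf10 ⟨262,19,19,13,13⟩ 58
    (.chk false 0)
    (by decide +kernel)

theorem p0_10_3 : Ok2 par f10 Box3.unit (selB2 0 (selB2 1 (selB2 1 C0 1018517988167243043134222844204689079759486426400012860272058621089568525112010879550537727) 2658455991569831745807614120560689151) 1152921504606846975) :=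
  Ok2.run hw hf10 ⟨262,19,19,13,13⟩ 58
    (.chk false 0)
    (by decide +kernel)

theorem p0_10_4 : Ok2 par f10 Box3.unit (selB2 1 (selB2 1 (selB2 0 C0 1018517988167243043134222844204689079759486426400012860272058621089568525112010879550537727) 1013604417535) 131071) :=
  Ok2.run hw hf10 ⟨312,25,25,13,13⟩ 58
    (.chk true 0)
    (by decide +kernel)

theorem p0_10_5 : Ok2 par f10 Box3.unit (selB2 0 (selB2 1 (selB2 0 C0 1018517988167243043134222844204689079759486426400012860272058621089568525112010879550537727) 1013604417535) 131071) :=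
  Ok2.run hw hf10 ⟨312,25,25,13,13⟩ 58
    (.chk true 0)
    (by decide +kernel)

theorem p0_10_6 : Ok2 par f10 ((((Box3.unit.l 0).l 1).l 0).l 1) (selB2 1 (selB2 0 (selB2 0 (selB2 0 (selB2 0 (selB2 0 (selB2 0 (selB2 0 (selB2 0 C0 1018517988167243043134222844204689079759486426400012860272058621089568525112010879550537727) 1013604417535) 2129968) 261696) 8) 65) 1) 10) 1) :=
  Ok2.run hw hf10 ⟨436,25,25,13,13⟩ 58
    (.chk true 0)
    (by decide +kernel)

theorem p0_10_7 : Ok2 par f10 ((((Box3.unit.l 0).l 1).l 0).l 1) (selB2 0 (selB2 0 (selB2 0 (selB2 0 (selB2 0 (selB2 0 (selB2 0 (selB2 0 (selB2 0 C0 1018517988167243043134222844204689079759486426400012860272058621089568525112010879550537727) 1013604417535) 2129968) 261696) 8) 65) 1) 10) 1) :=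
  Ok2.run hw hf10 ⟨399,19,19,13,13⟩ 58
    (.split 0 (.chk false 0) (.split 1 (.chk false 0) (.chk false 0)))
    (by decide +kernel)

theorem p0_10_8 : Ok2 par f10 ((((Box3.unit.l 0).l 1).l 0).l 1) (selB2 1 (selB2 0 (selB2 0 (selB2 0 (selB2 0 (selB2 0 (selB2 0 (selB2 0 C0 1018517988167243043134222844204689079759486426400012860272058621089568525112010879550537727) 1013604417535) 2129968) 261696) 8) 65) 1) 10) :=
  Ok2.run hw hf10 ⟨363,19,19,13,13⟩ 58
    (.chk false 0)
    (by decide +kernel)

theorem p0_10_9 : Ok2 par f10 ((((Box3.unit.l 0).l 1).l 0).r 1) (selB2 0 (selB2 0 (selB2 0 (selB2 0 (selB2 0 (selB2 0 (selB2 0 C0 1018517988167243043134222844204689079759486426400012860272058621089568525112010879550537727) 1013604417535) 2129968) 261696) 8) 65) 1) :=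
  Ok2.run hw hf10 ⟨427,25,25,13,13⟩ 58
    (.part 8 (.chk false 0) (.part 1 (.chk true 0) (.split 0 (.chk false 0) (.chk false 0))))
    (by decide +kernel)

theorem p0_10_10 : Ok2 par f10 (((Box3.unit.l 0).l 1).l 0) (selB2 1 (selB2 0 (selB2 0 (selB2 0 (selB2 0 (selB2 0 (selB2 0 C0 1018517988167243043134222844204689079759486426400012860272058621089568525112010879550537727) 1013604417535) 2129968) 261696) 8) 65) 1) :=
  Ok2.run hw hf10 ⟨408,25,25,13,13⟩ 58
    (.chk true 0)
    (by decide +kernel)

theorem p0_10_11 : Ok2 par f10 (((Box3.unit.l 0).l 1).l 0) (selB2 1 (selB2 0 (selB2 0 (selB2 0 (selB2 0 (selB2 0 C0 1018517988167243043134222844204689079759486426400012860272058621089568525112010879550537727) 1013604417535) 2129968) 261696) 8) 65) :=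
  Ok2.run hw hf10 ⟨341,19,19,13,13⟩ 58
    (.chk false 1024)
    (by decide +kernel)

theorem p0_10_12 : Ok2 par f10 ((((Box3.unit.l 0).l 1).r 0).l 1) (selB2 0 (selB2 0 (selB2 0 (selB2 0 (selB2 0 (selB2 0 (selB2 0 C0 1018517988167243043134222844204689079759486426400012860272058621089568525112010879550537727) 1013604417535) 2129968) 261696) 8) 104) 2) :=
  Ok2.run hw hf10 ⟨476,25,25,13,13⟩ 58
    (.part 5 (.chk false 1024) (.split 1 (.chk true 0) (.split 0 (.chk true 0) (.chk true 0))))
    (by decide +kernel)

theorem p0_10_13 : Ok2 par f10 ((((Box3.unit.l 0).l 1).r 0).r 1) (selB2 0 (selB2 0 (selB2 0 (selB2 0 (selB2 0 (selB2 0 (selB2 0 C0 1018517988167243043134222844204689079759486426400012860272058621089568525112010879550537727) 1013604417535) 2129968) 261696) 8) 104) 2) :=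
  Ok2.run hw hf10 ⟨445,25,25,13,13⟩ 58
    (.part 4 (.chk false 0) (.part 1 (.chk true 0) (.split 0 (.chk true 0) (.chk true 0))))
    (by decide +kernel)

theorem p0_10_14 : Ok2 par f10 (((Box3.unit.l 0).l 1).r 0) (selB2 1 (selB2 0 (selB2 0 (selB2 0 (selB2 0 (selB2 0 (selB2 0 C0 1018517988167243043134222844204689079759486426400012860272058621089568525112010879550537727) 1013604417535) 2129968) 261696) 8) 104) 2) :=
  Ok2.run hw hf10 ⟨399,25,25,13,13⟩ 58
    (.chk true 0)
    (by decide +kernel)

theorem p0_10_15 : Ok2 par f10 (((Box3.unit.l 0).l 1).r 0) (selB2 1 (selB2 0 (selB2 0 (selB2 0 (selB2 0 (selB2 0 C0 1018517988167243043134222844204689079759486426400012860272058621089568525112010879550537727) 1013604417535) 2129968) 261696) 8) 104) :=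
  Ok2.run hw hf10 ⟨332,19,19,13,13⟩ 58
    (.chk false 0)
    (by decide +kernel)

theorem p0_10_16 : Ok2 par f10 ((Box3.unit.l 0).l 1) (selB2 1 (selB2 0 (selB2 0 (selB2 0 (selB2 0 C0 1018517988167243043134222844204689079759486426400012860272058621089568525112010879550537727) 1013604417535) 2129968) 261696) 8) :=
  Ok2.run hw hf10 ⟨380,25,25,13,13⟩ 58
    (.chk true 0)
    (by decide +kernel)

theorem p0_10_17 : Ok2 par f10 ((Box3.unit.l 0).l 1) (selB2 1 (selB2 0 (selB2 0 (selB2 0 C0 1018517988167243043134222844204689079759486426400012860272058621089568525112010879550537727) 1013604417535) 2129968) 261696) :=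
  Ok2.run hw hf10 ⟨319,19,19,13,13⟩ 58
    (.chk false 0)
    (by decide +kernel)

theorem p0_10_18 : Ok2 par f10 ((Box3.unit.l 0).r 1) (selB2 0 (selB2 0 (selB2 0 C0 1018517988167243043134222844204689079759486426400012860272058621089568525112010879550537727) 1013604417535) 2129968) :=
  Ok2.run hw hf10 ⟨380,25,25,13,13⟩ 58
    (.part 262128 (.chk false 0) (.chk true 0))
    (by decide +kernel)

theorem p0_10_19 : Ok2 par f10 (Box3.unit.l 0) (selB2 1 (selB2 0 (selB2 0 C0 1018517988167243043134222844204689079759486426400012860272058621089568525112010879550537727) 1013604417535) 2129968) :=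
  Ok2.run hw hf10 ⟨291,19,19,13,13⟩ 58
    (.chk false 0)
    (by decide +kernel)

theorem p0_10_20 : Ok2 par f10 (((((Box3.unit.r 0).l 1).l 1).l 0).l 0) (selB2 0 (selB2 0 (selB2 0 (selB2 0 (selB2 0 C0 1018517988167243043134222844204689079759486426400012860272058621089568525112010879550537727) 1013604417535) 4194288) 10) 2) :=
  Ok2.run hw hf10 ⟨471,25,25,13,13⟩ 58
    (.split 1 (.chk false 1024) (.chk true 0))
    (by decide +kernel)

theorem p0_10_21 : Ok2 par f10 (((((Box3.unit.r 0).l 1).l 1).l 0).r 0) (selB2 0 (selB2 0 (selB2 0 (selB2 0 (selB2 0 C0 1018517988167243043134222844204689079759486426400012860272058621089568525112010879550537727) 1013604417535) 4194288) 10) 2) :=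
  Ok2.run hw hf10 ⟨526,25,25,13,13⟩ 58
    (.split 1 (.split 0 (.split 1 (.chk false 1024) (.chk true 0)) (.chk true 0)) (.chk true 0))
    (by decide +kernel)

theorem p0_10_22 : Ok2 par f10 ((((Box3.unit.r 0).l 1).l 1).r 0) (selB2 0 (selB2 0 (selB2 0 (selB2 0 (selB2 0 C0 1018517988167243043134222844204689079759486426400012860272058621089568525112010879550537727) 1013604417535) 4194288) 10) 2) :=
  Ok2.run hw hf10 ⟨436,25,25,13,13⟩ 58
    (.chk true 0)
    (by decide +kernel)

theorem p0_10_23 : Ok2 par f10 (((Box3.unit.r 0).l 1).l 1) (selB2 1 (selB2 0 (selB2 0 (selB2 0 (selB2 0 C0 1018517988167243043134222844204689079759486426400012860272058621089568525112010879550537727) 1013604417535) 4194288) 10) 2) :=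
  Ok2.run hw hf10 ⟨408,25,25,13,13⟩ 58
    (.chk true 0)
    (by decide +kernel)

theorem p0_10_24 : Ok2 par f10 (((Box3.unit.r 0).l 1).r 1) (selB2 0 (selB2 0 (selB2 0 (selB2 0 C0 1018517988167243043134222844204689079759486426400012860272058621089568525112010879550537727) 1013604417535) 4194288) 10) :=
  Ok2.run hw hf10 ⟨400,25,25,13,13⟩ 58
    (.chk true 0)
    (by decide +kernel)

theorem p0_10_25 : Ok2 par f10 ((Box3.unit.r 0).r 1) (selB2 0 (selB2 0 (selB2 0 (selB2 0 C0 1018517988167243043134222844204689079759486426400012860272058621089568525112010879550537727) 1013604417535) 4194288) 10) :=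
  Ok2.run hw hf10 ⟨381,25,25,13,13⟩ 58
    (.chk true 0)
    (by decide +kernel)

theorem p0_10_26 : Ok2 par f10 (Box3.unit.r 0) (selB2 1 (selB2 0 (selB2 0 (selB2 0 C0 1018517988167243043134222844204689079759486426400012860272058621089568525112010879550537727) 1013604417535) 4194288) 10) :=
  Ok2.run hw hf10 ⟨346,25,25,13,13⟩ 58
    (.chk true 0)
    (by decide +kernel)

theorem p0_10_27 : Ok2 par f10 (Box3.unit.r 0) (selB2 1 (selB2 0 (selB2 0 C0 1018517988167243043134222844204689079759486426400012860272058621089568525112010879550537727) 1013604417535) 4194288) :=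
  Ok2.run hw hf10 ⟨291,19,19,13,13⟩ 58
    (.chk false 0)
    (by decide +kernel)


end Crest.Agent.R163.P6
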