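import Crest.Agent.R163.Q3.D.P6.P0_0
import Crest.Agent.R163.Q3.D.P6.P0_1
import Crest.Agent.R163.Q3.D.P6.P0_2
import Crest.Agent.R163.Q3.D.P6.P0_3
import Crest.Agent.R163.Q3.D.P6.P0_4
import Crest.Agent.R163.Q3.D.P6.P0_5
import Crest.Agent.R163.Q3.D.P6.P0_6

set_option autoImplicit false
set_option maxRecDepth 100000
set_option linter.all false
set_option Elab.async false

namespace Crest.Agent.R163.P6

theorem o0_10 : Ok2 par f10 Box3.unit C0 :=
  (Ok2.part 1018517988167243043134222844204689079759486426400012860272058621089568525112010879550537727 (Ok2.part 2658455991569831745807614120560689151 (Ok2.part 1152921504606846975 p0_10_2 p0_10_3) (Ok2.part 2305843009213693951 p0_10_0 p0_10_1)) (Ok2.part 1013604417535 (Ok2.part 131071 p0_10_4 p0_10_5) (Ok2.split 0 (Ok2.part 2129968 p0_10_19 (Ok2.split 1 (Ok2.part 261696 p0_10_17 (Ok2.part 8 p0_10_16 (Ok2.split 0 (Ok2.part 65 p0_10_11 (Ok2.part 1 p0_10_10 (Ok2.split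 1 (Ok2.part 10 p0_10_8 (Ok2.part 1 p0_10_6 p0_10_7)) p0_10_9))) (Ok2.part 104 p0_10_15 (Ok2.part 2 p0_10_14 (Ok2.split 1 p0_10_12 p0_10_13)))))) p0_10_18)) (Ok2.part 4194288 p0_10_27 (Ok2.part 10 p0_10_26 (Ok2.split 1 (Ok2.split 1 (Ok2.part 2 p0_10_23 (Ok2.split 0 (Ok2.split 0 p0_10_20 p0_10_21) p0_10_22)) p0_10_24) p0_10_25))))))
theorem o0_9 : Ok2 par f9 Box3.unit C0 :=
  (Ok2.part 1018517988167243043134222844204689080525734196832968125318056597397977860010363227822800895 (Ok2.part 10889035741470030830827987437816582766591 (Ok2.part 73786976294838206463 p0_9_2 p0_9_3) (Ok2.part 147573952589676412927 p0_9_0 p0_9_1)) (Ok2.part 268433407 p0_9_4 p0_9_5))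
theorem o0_8 : Ok2 par f8 Box3.unit C0 :=
  (Ok2.part 1018517988159803399502043376975286350948800641980075704060982140994348881562396206733197311 (Ok2.part 81129638414606681695789005144063 (Ok2.part 9007199254740991 p0_8_2 p0_8_3) (Ok2.part 9007199254740991 p0_8_0 p0_8_1)) (Ok2.part 262140 p0_8_17 (Ok2.split 1 (Ok2.part 2213032757724098592635 p0_8_4 p0_8_5) (Ok2.part 1919615431070307057664 p0_8_16 (Ok2.part 1 p0_8_15 (Ok2.split 0 (Ok2.part 27534163696813080575 p0_8_6 p0_8_7) (Ok2.part 36893485261201605842 p0_8_14 (Ok2.split 1 p0_8_13 (Ok2.part 7516209416 p0_8_12 (Ok2.part 1 p0_8_11 (Ok2.split 0 (Ok2.part 66960639 p0_8_8 p0_8_9) p0_8_10)))))))))))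
theorem o0_7 : Ok2 par f7 Box3.unit C0 :=
  (Ok2.part 1018510186243527461873825546730052585408883602684840893162633803918441475152990603134894079 (Ok2.part 79228162514264337593543950335 (Ok2.part 281474976710655 p0_7_2 p0_7_3) (Ok2.part 281474976710655 p0_7_0 p0_7_1)) (Ok2.split 0 (Ok2.part 156544945607872048042643652870143 (Ok2.part 4503599627370495 p0_7_4 p0_7_5) (Ok2.split 1 p0_7_6 p0_7_7)) (Ok2.part 162247194824572134787606802071552 p0_7_29 (Ok2.split 1 (Ok2.part 8061080234812161011657721 p0_7_25 (Ok2.split 0 p0_7_24 (Ok2.part 1125917086712832 p0_7_23 (Ok2.split 1 (Ok2.part 229816185377598 p0_7_17 (Ok2.split 0 p0_7_16 (Ok2.split 1 (Ok2.part 228558831 p0_7_13 (Ok2.split 0 p0_7_12 (Ok2.split 1 (Ok2.part 95 p0_7_10 (Ok2.split 0 p0_7_8 p0_7_9)) p0_7_11))) (Ok2.part 268434427 p0_7_14 p0_7_15)))) (Ok2.part 281474976202751 p0_7_22 (Ok2.split 0 p0_7_21 (Ok2.part 20 p0_7_20 (Ok2.split 1 p0_7_18 p0_7_19)))))))) (Ok2.part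 19342813113834066777830823 (Ok2.part 137438953471 p0_7_26 p0_7_27) p0_7_28)))))
theorem o0_6 : Ok2 par f6 Box3.unit C0 :=
  (Ok2.part 512200344600317944314464933192805393402338577340732238262764995279884703715117395121012735 (Ok2.part 2722258935367507707706996859454145691647 (Ok2.part 36893488147419103231 (Ok2.part 4294967295 p0_6_6 p0_6_7) (Ok2.part 8589934591 p0_6_4 p0_6_5)) (Ok2.part 73786976294838206463 (Ok2.part 8589934591 p0_6_2 p0_6_3) (Ok2.part 8589934591 p0_6_0 p0_6_1))) (Ok2.split 0 (Ok2.part 68719475651 p0_6_11 (Ok2.split 1 p0_6_10 (Ok2.split 0 p0_6_8 p0_6_9))) (Ok2.part 57099795964 p0_6_16 (Ok2.split 1 p0_6_15 (Ok2.split 0 p0_6_14 (Ok2.part 8123 p0_6_12 p0_6_13))))))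
theorem o0_5 : Ok2 par f5 Box3.unit C0 :=
  (Ok2.part 713623846352979940529142984724747568191373311 (Ok2.part 18889465931478580854783 (Ok2.part 137438953471 p0_5_6 p0_5_7) (Ok2.part 137438953471 p0_5_4 p0_5_5)) (Ok2.part 37778931862957161709567 (Ok2.part 137438953471 p0_5_2 p0_5_3) (Ok2.part 137438953471 p0_5_0 p0_5_1)))
theorem o0_4 : Ok2 par f4 Box3.unit C0 :=
  (Ok2.part 509398867222133218878893676788403545228437934546164180130312642949314344936683980296552447 (Ok2.part 75557863725914323419135 (Ok2.part 274877906943 p0_4_2 p0_4_3) (Ok2.part 274877906943 p0_4_0 p0_4_1)) (Ok2.split 1 (Ok2.part 178405961587900174265352228550043316634248705 (Ok2.part 4611686018427387903 p0_4_6 (Ok2.part 2147483647 p0_4_4 p0_4_5)) (Ok2.split 0 (Ok2.part 1038335 p0_4_9 (Ok2.split 0 p0_4_7 p0_4_8)) (Ok2.part 3704832 p0_4_17 (Ok2.split 1 (Ok2.part 98646 p0_4_15 (Ok2.split 1 p0_4_14 (Ok2.part 749 p0_4_13 (Ok2.split 2 p0_4_12 (Ok2.split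 0 p0_4_10 p0_4_11))))) p0_4_16)))) (Ok2.part 43566777485791882181948787752455629703175 p0_4_64 (Ok2.split 1 (Ok2.part 334903147307777639758055772481917140 (Ok2.part 17592186044415 p0_4_18 p0_4_19) (Ok2.split 0 (Ok2.part 4259773439 p0_4_23 (Ok2.split 0 p0_4_22 (Ok2.part 14 p0_4_20 p0_4_21))) (Ok2.part 7843335168 p0_4_26 (Ok2.split 1 p0_4_24 p0_4_25)))) (Ok2.part 3894856481290513785117946396991807 p0_4_63 (Ok2.split 0 (Ok2.part 193430635283285724071198719 (Ok2.part 17179869183 p0_4_27 p0_4_28) (Ok2.split 1 (Ok2.part 323327 p0_4_33 (Ok2.split 0 p0_4_32 (Ok2.part 114 p0_4_31 (Ok2.split 1 p0_4_29 p0_4_30)))) (Ok2.part 16647776 p0_4_39 (Ok2.split 0 p0_4_38 (Ok2.part 4107 p0_4_37 (Ok2.split 1 p0_4_36 (Ok2.part 253 p0_4_34 p0_4_35))))))) (Ok2.part 3689660791342111663434235968 p0_4_62 (Ok2.split 1 (Ok2.part 7839856098227397853151 (Ok2.part 4294967295 p0_4_40 p0_4_41) (Ok2.split 0 (Ok2.part 19 p0_4_48 (Ok2.split 1 p0_4_47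 (Ok2.part 13 p0_4_46 (Ok2.split 2 p0_4_45 (Ok2.part 2 p0_4_44 (Ok2.split 1 p0_4_42 p0_4_43)))))) (Ok2.part 250 p0_4_49 p0_4_50))) (Ok2.part 9411027834542477295580 p0_4_61 (Ok2.split 1 (Ok2.part 45097156605 p0_4_51 p0_4_52) (Ok2.part 135954161581 p0_4_60 (Ok2.split 0 p0_4_59 (Ok2.part 241 p0_4_58 (Ok2.split 1 p0_4_57 (Ok2.part 3 p0_4_56 (Ok2.split 0 (Ok2.split 1 p0_4_53 p0_4_54) p0_4_55))))))))))))))))
theorem o0_3 : Ok2 par f3 Box3.unit C0 :=
  (Ok2.part 1018517988167243043134222844204689080525734196832968125318070220034915502561492322219982847 (Ok2.part 178405961588244985132285746181186892047843327 (Ok2.part 9444732965739290427391 (Ok2.part 68719476735 p0_3_6 p0_3_7) (Ok2.part 137438953471 p0_3_4 p0_3_5)) (Ok2.part 18889465931478580854783 (Ok2.part 137438953471 p0_3_2 p0_3_3) (Ok2.part 137438953471 p0_3_0 p0_3_1))) p0_3_8)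
theorem o0_2 : Ok2 par f2 Box3.unit C0 :=
  (Ok2.part 1018517988167243043134222844204689080525734196832968125318070223207136853230279276648988671 (Ok2.part 356811923176489970264571492362373784095686655 (Ok2.part 18889465931478580854783 (Ok2.part 137438953471 p0_2_6 p0_2_7) (Ok2.part 137438953471 p0_2_4 p0_2_5)) (Ok2.part 18889465931478580854783 (Ok2.part 137438953471 p0_2_2 p0_2_3) (Ok2.part 137438953471 p0_2_0 p0_2_1))) (Ok2.split 0 p0_2_12 (Ok2.part 4 p0_2_11 (Ok2.split 1 p0_2_10 (Ok2.split 2 p0_2_8 p0_2_9)))))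
theorem o0_1 : Ok2 par f1 Box3.unit C0 :=
  (Ok2.part 713623846352979940529142984724747568191373311 (Ok2.part 18889465931478580854783 (Ok2.part 137438953471 p0_1_6 p0_1_7) (Ok2.part 137438953471 p0_1_4 p0_1_5)) (Ok2.part 37778931862957161709567 (Ok2.part 137438953471 p0_1_2 p0_1_3) (Ok2.part 137438953471 p0_1_0 p0_1_1)))
theorem o0_0 : Ok2 par f0 Box3.unit C0 :=
  (Ok2.part 636075477469394637251106757936101673233242067438596651219876722440261549686881380867244031 (Ok2.part 20769187434139310514121985316880383 (Ok2.part 144115188075855871 p0_0_2 p0_0_3) (Ok2.part 144115188075855871 p0_0_0 p0_0_1)) (Ok2.split 0 (Ok2.part 2361180917610591572144 p0_0_13 (Ok2.split 0 (Ok2.part 132054950 p0_0_6 (Ok2.split 0 p0_0_4 p0_0_5)) (Ok2.part 134183775 p0_0_12 (Ok2.split 1 p0_0_11 (Ok2.split 2 p0_0_10 (Ok2.part 10 p0_0_9 (Ok2.split 0 p0_0_7 p0_0_8))))))) (Ok2.part 2361183241297383653375 (Ok2.part 34359738367 p0_0_14 p0_0_15)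 p0_0_16)))

theorem pt0 : PtAll2 par C0 :=
  PtAll2.of_okD hw (OkD2.cover [f0.dom,f1.dom,f2.dom,f3.dom,f4.dom,f5.dom,f6.dom,f7.dom,f8.dom,f9.dom,f10.dom]
    (.split 0 (.split 0 (.leaf 0) (.split 1 (.leaf 1) (.leaf 2))) (.split 1 (.split 0 (.leaf 3) (.leaf 4)) (.split 0 (.split 1 (.leaf 5) (.leaf 6)) (.split 1 (.leaf 7) (.split 0 (.leaf 8) (.split 1 (.leaf 9) (.leaf 10)))))))
    (by decide +kernel)
    (List.forall_mem_cons.2 ⟨OkD2.of_ok o0_0, (List.forall_mem_cons.2 ⟨OkD2.of_ok o0_1, (List.forall_mem_cons.2 ⟨OkD2.of_ok o0_2, (List.forall_mem_cons.2 ⟨OkD2.of_ok o0_3, (List.forall_mem_cons.2 ⟨OkD2.of_ok o0_4, (List.forall_mem_cons.2 ⟨OkD2.of_ok o0_5, (List.forall_mem_cons.2 ⟨OkD2.of_ok o0_6, (List.forall_mem_cons.2 ⟨OkD2.of_ok o0_7, (List.forall_mem_cons.2 ⟨OkD2.of_ok o0_8, (List.forall_mem_cons.2 ⟨OkD2.of_ok o0_9, (List.forall_mem_cons.2 ⟨OkD2.of_ok o0_10, (fun _ h => nomatch h)⟩)⟩)⟩)⟩)⟩)⟩)⟩)⟩)⟩)⟩)⟩))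

end Crest.Agent.R163.P6
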