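import Crest.Agent.R163.Q3.D.P6.S1
import Crest.Agent.R163.Q3.D.P6.H

set_option autoImplicit false
set_option maxRecDepth 100000
set_option linter.all false
set_option Elab.async false

namespace Crest.Agent.R163.P6

theorem p1_4_13 : Ok2 par f4 ((((((((Box3.unit.r 1).l 1).l 0).r 1).l 0).l 1).r 2).r 0) (selB2 0 (selB2 0 (selB2 0 (selB2 0 (selB2 0 C1 16777268) 32444) 8) 348) 3) :=
  Ok2.run hw hf4 ⟨471,19,19,13,13⟩ 55
    (.split 1 (.part 1 (.chk false 0) (.split 2 (.chk false 0) (.split 0 (.chk false 0) (.split 1 (.chk false 0) (.chk false 0))))) (.chk false 0))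
    (by decide +kernel)

theorem p1_4_14 : Ok2 par f4 (((((((Box3.unit.r 1).l 1).l 0).r 1).l 0).l 1).l 2) (selB2 0 (selB2 0 (selB2 0 (selB2 0 (selB2 0 C1 16777268) 32444) 8) 348) 3) :=
  Ok2.run hw hf4 ⟨388,19,19,13,13⟩ 55
    (.chk false 0)
    (by decide +kernel)

theorem p1_4_15 : Ok2 par f4 ((((((Box3.unit.r 1).l 1).l 0).r 1).l 0).r 1) (selB2 0 (selB2 0 (selB2 0 (selB2 0 (selB2 0 C1 16777268) 32444) 8) 348) 3) :=
  Ok2.run hw hf4 ⟨373,19,19,13,13⟩ 55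
    (.chk false 0)
    (by decide +kernel)

theorem p1_4_16 : Ok2 par f4 (((((Box3.unit.r 1).l 1).l 0).r 1).l 0) (selB2 1 (selB2 0 (selB2 0 (selB2 0 (selB2 0 C1 16777268) 32444) 8) 348) 3) :=
  Ok2.run hw hf4 ⟨354,19,19,13,13⟩ 55
    (.chk false 0)
    (by decide +kernel)

theorem p1_4_17 : Ok2 par f4 ((((((Box3.unit.r 1).l 1).l 0).r 1).r 0).l 1) (selB2 0 (selB2 0 (selB2 0 (selB2 0 (selB2 0 C1 16777268) 32444) 8) 348) 8) :=
  Ok2.run hw hf4 ⟨418,19,19,13,13⟩ 55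
    (.part 3 (.chk false 0) (.split 2 (.chk false 0) (.split 0 (.split 1 (.chk false 0) (.chk false 0)) (.chk false 0))))
    (by decide +kernel)

theorem p1_4_18 : Ok2 par f4 ((((((Box3.unit.r 1).l 1).l 0).r 1).r 0).r 1) (selB2 0 (selB2 0 (selB2 0 (selB2 0 (selB2 0 C1 16777268) 32444) 8) 348) 8) :=
  Ok2.run hw hf4 ⟨402,19,19,13,13⟩ 55
    (.part 5 (.chk false 0) (.split 2 (.chk false 0) (.split 0 (.chk false 0) (.chk false 0))))
    (by decide +kernel)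

theorem p1_4_19 : Ok2 par f4 (((((Box3.unit.r 1).l 1).l 0).r 1).r 0) (selB2 1 (selB2 0 (selB2 0 (selB2 0 (selB2 0 C1 16777268) 32444) 8) 348) 8) :=
  Ok2.run hw hf4 ⟨345,19,19,13,13⟩ 55
    (.chk false 0)
    (by decide +kernel)

theorem p1_4_20 : Ok2 par f4 ((((Box3.unit.r 1).l 1).l 0).r 1) (selB2 1 (selB2 0 (selB2 0 (selB2 0 C1 16777268) 32444) 8) 348) :=
  Ok2.run hw hf4 ⟨332,19,19,13,13⟩ 55
    (.chk false 0)
    (by decide +kernel)

theorem p1_4_21 : Ok2 par f4 (((Box3.unit.r 1).l 1).l 0) (selB2 1 (selB2 0 (selB2 0 C1 16777268) 32444) 8) :=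
  Ok2.run hw hf4 ⟨311,19,19,13,13⟩ 55
    (.chk false 0)
    (by decide +kernel)

theorem p1_4_22 : Ok2 par f4 (((Box3.unit.r 1).l 1).r 0) (selB2 0 (selB2 0 C1 16777268) 32444) :=
  Ok2.run hw hf4 ⟨351,19,19,13,13⟩ 55
    (.part 892 (.chk false 0) (.split 1 (.chk false 0) (.part 4 (.chk false 0) (.split 1 (.chk false 0) (.chk false 0)))))
    (by decide +kernel)

theorem p1_4_23 : Ok2 par f4 ((Box3.unit.r 1).r 1) (selB2 0 (selB2 0 C1 16777268) 32444) :=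
  Ok2.run hw hf4 ⟨292,19,19,13,13⟩ 55
    (.chk false 0)
    (by decide +kernel)

theorem p1_4_24 : Ok2 par f4 (Box3.unit.r 1) (selB2 1 (selB2 0 C1 16777268) 32444) :=
  Ok2.run hw hf4 ⟨270,19,19,13,13⟩ 55
    (.chk false 0)
    (by decide +kernel)

theorem p1_4_25 : Ok2 par f4 Box3.unit (selB2 1 C1 16777268) :=
  Ok2.run hw hf4 ⟨241,19,19,13,13⟩ 55
    (.chk false 0)
    (by decide +kernel)

theorem p1_5_0 : Ok2 par f5 Box3.unit C1 :=
  Ok2.run hw hf5 ⟨243,19,19,16,13⟩ 55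
    (.chk false 0)
    (by decide +kernel)

theorem p1_6_0 : Ok2 par f6 ((((Box3.unit.l 0).r 1).r 0).l 2) (selB2 0 (selB2 0 (selB2 0 C1 16777388) 1047739) 5) :=
  Ok2.run hw hf6 ⟨411,19,19,16,13⟩ 55
    (.split 1 (.chk false 0) (.split 0 (.chk false 0) (.part 1 (.chk false 0) (.split 1 (.chk false 0) (.split 0 (.chk false 0) (.chk false 0))))))
    (by decide +kernel)

theorem p1_6_1 : Ok2 par f6 ((((Box3.unit.l 0).r 1).r 0).r 2) (selB2 0 (selB2 0 (selB2 0 C1 16777388) 1047739) 5) :=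
  Ok2.run hw hf6 ⟨378,19,19,16,13⟩ 55
    (.part 1 (.chk false 0) (.split 1 (.chk false 0) (.split 0 (.chk false 0) (.chk false 0))))
    (by decide +kernel)

theorem p1_6_2 : Ok2 par f6 (((Box3.unit.l 0).r 1).r 0) (selB2 1 (selB2 0 (selB2 0 C1 16777388) 1047739) 5) :=
  Ok2.run hw hf6 ⟨313,19,19,16,13⟩ 55
    (.chk false 0)
    (by decide +kernel)

theorem p1_6_3 : Ok2 par f6 (((Box3.unit.l 0).r 1).l 0) (selB2 0 (selB2 0 C1 16777388) 1047739) :=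
  Ok2.run hw hf6 ⟨322,19,19,16,13⟩ 55
    (.chk false 0)
    (by decide +kernel)

theorem p1_6_4 : Ok2 par f6 ((Box3.unit.l 0).l 1) (selB2 0 (selB2 0 C1 16777388) 1047739) :=
  Ok2.run hw hf6 ⟨300,19,19,16,13⟩ 55
    (.chk false 0)
    (by decide +kernel)

theorem p1_6_5 : Ok2 par f6 (Box3.unit.l 0) (selB2 1 (selB2 0 C1 16777388) 1047739) :=
  Ok2.run hw hf6 ⟨271,19,19,16,13⟩ 55
    (.chk false 0)
    (by decide +kernel)

theorem p1_6_6 : Ok2 par f6 ((((Box3.unit.r 0).r 1).l 0).l 2) (selB2 0 (selB2 0 (selB2 0 (selB2 0 C1 16777388) 214972) 4) 135) :=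
  Ok2.run hw hf6 ⟨378,19,19,16,13⟩ 55
    (.part 1 (.chk false 0) (.split 1 (.chk false 0) (.split 0 (.chk false 0) (.chk false 0))))
    (by decide +kernel)

theorem p1_6_7 : Ok2 par f6 ((((Box3.unit.r 0).r 1).l 0).r 2) (selB2 0 (selB2 0 (selB2 0 (selB2 0 C1 16777388) 214972) 4) 135) :=
  Ok2.run hw hf6 ⟨378,19,19,16,13⟩ 55
    (.part 14 (.chk false 0) (.split 1 (.chk false 0) (.split 0 (.chk false 0) (.chk false 0))))
    (by decide +kernel)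

theorem p1_6_8 : Ok2 par f6 (((Box3.unit.r 0).r 1).l 0) (selB2 1 (selB2 0 (selB2 0 (selB2 0 C1 16777388) 214972) 4) 135) :=
  Ok2.run hw hf6 ⟨313,19,19,16,13⟩ 55
    (.chk false 0)
    (by decide +kernel)

theorem p1_6_9 : Ok2 par f6 (((Box3.unit.r 0).r 1).r 0) (selB2 0 (selB2 0 (selB2 0 C1 16777388) 214972) 4) :=
  Ok2.run hw hf6 ⟨344,19,19,16,13⟩ 55
    (.part 254 (.chk false 0) (.split 1 (.chk false 0) (.chk false 0)))
    (by decide +kernel)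

theorem p1_6_10 : Ok2 par f6 ((Box3.unit.r 0).r 1) (selB2 1 (selB2 0 (selB2 0 C1 16777388) 214972) 4) :=
  Ok2.run hw hf6 ⟨300,19,19,16,13⟩ 55
    (.chk false 0)
    (by decide +kernel)

theorem p1_6_11 : Ok2 par f6 ((Box3.unit.r 0).l 1) (selB2 0 (selB2 0 C1 16777388) 214972) :=
  Ok2.run hw hf6 ⟨300,19,19,16,13⟩ 55
    (.chk false 0)
    (by decide +kernel)

theorem p1_6_12 : Ok2 par f6 (Box3.unit.r 0) (selB2 1 (selB2 0 C1 16777388) 214972) :=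
  Ok2.run hw hf6 ⟨271,19,19,16,13⟩ 55
    (.chk false 0)
    (by decide +kernel)

theorem p1_6_13 : Ok2 par f6 Box3.unit (selB2 1 C1 16777388) :=
  Ok2.run hw hf6 ⟨243,19,19,16,13⟩ 55
    (.chk false 0)
    (by decide +kernel)

theorem p1_7_0 : Ok2 par f7 Box3.unit C1 :=
  Ok2.run hw hf7 ⟨241,19,19,13,13⟩ 55
    (.chk false 0)
    (by decide +kernel)

theorem p1_8_0 : Ok2 par f8 Box3.unit C1 :=
  Ok2.run hw hf8 ⟨238,19,19,10,12⟩ 55
    (.chk false 0)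
    (by decide +kernel)

theorem p1_9_0 : Ok2 par f9 Box3.unit C1 :=
  Ok2.run hw hf9 ⟨242,19,19,10,12⟩ 55
    (.chk false 0)
    (by decide +kernel)

theorem p1_10_0 : Ok2 par f10 Box3.unit C1 :=
  Ok2.run hw hf10 ⟨259,19,19,13,13⟩ 55
    (.chk false 0)
    (by decide +kernel)


end Crest.Agent.R163.P6
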