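import Crest.Agent.R163.Q3.D.P6.P1_0
import Crest.Agent.R163.Q3.D.P6.P1_1

set_option autoImplicit false
set_option maxRecDepth 100000
set_option linter.all false
set_option Elab.async false

namespace Crest.Agent.R163.P6

theorem o1_10 : Ok2 par f10 Box3.unit C1 :=
  p1_10_0
theorem o1_9 : Ok2 par f9 Box3.unit C1 :=
  p1_9_0
theorem o1_8 : Ok2 par f8 Box3.unit C1 :=
  p1_8_0
theorem o1_7 : Ok2 par f7 Box3.unit C1 :=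
  p1_7_0
theorem o1_6 : Ok2 par f6 Box3.unit C1 :=
  (Ok2.part 16777388 p1_6_13 (Ok2.split 0 (Ok2.part 1047739 p1_6_5 (Ok2.split 1 p1_6_4 (Ok2.split 0 p1_6_3 (Ok2.part 5 p1_6_2 (Ok2.split 2 p1_6_0 p1_6_1))))) (Ok2.part 214972 p1_6_12 (Ok2.split 1 p1_6_11 (Ok2.part 4 p1_6_10 (Ok2.split 0 (Ok2.part 135 p1_6_8 (Ok2.split 2 p1_6_6 p1_6_7)) p1_6_9))))))
theorem o1_5 : Ok2 par f5 Box3.unit C1 :=
  p1_5_0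
theorem o1_4 : Ok2 par f4 Box3.unit C1 :=
  (Ok2.part 16777268 p1_4_25 (Ok2.split 1 (Ok2.part 132087 p1_4_6 (Ok2.split 1 p1_4_5 (Ok2.part 65 p1_4_4 (Ok2.split 0 (Ok2.part 128 p1_4_2 (Ok2.split 1 p1_4_0 p1_4_1)) p1_4_3)))) (Ok2.part 32444 p1_4_24 (Ok2.split 1 (Ok2.split 0 (Ok2.part 8 p1_4_21 (Ok2.split 1 (Ok2.part 46 p1_4_11 (Ok2.split 0 p1_4_10 (Ok2.part 6 p1_4_9 (Ok2.split 1 p1_4_7 p1_4_8)))) (Ok2.part 348 p1_4_20 (Ok2.split 0 (Ok2.part 3 p1_4_16 (Ok2.split 1 (Ok2.split 2 p1_4_14 (Ok2.split 0 p1_4_12 p1_4_13)) p1_4_15)) (Ok2.part 8 p1_4_19 (Ok2.split 1 p1_4_17 p1_4_18)))))) p1_4_22) p1_4_23))))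
theorem o1_3 : Ok2 par f3 Box3.unit C1 :=
  (Ok2.part 16779951 p1_3_17 (Ok2.split 1 (Ok2.part 63552 p1_3_15 (Ok2.split 0 p1_3_14 (Ok2.part 2 p1_3_13 (Ok2.split 1 (Ok2.part 474 p1_3_0 p1_3_1) (Ok2.part 225 p1_3_12 (Ok2.split 1 (Ok2.part 20 p1_3_10 (Ok2.split 0 p1_3_9 (Ok2.part 2 p1_3_8 (Ok2.split 2 p1_3_7 (Ok2.split 1 (Ok2.part 2 p1_3_5 (Ok2.split 2 p1_3_4 (Ok2.split 0 p1_3_2 p1_3_3))) p1_3_6))))) p1_3_11)))))) p1_3_16))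
theorem o1_2 : Ok2 par f2 Box3.unit C1 :=
  p1_2_0
theorem o1_1 : Ok2 par f1 Box3.unit C1 :=
  p1_1_0
theorem o1_0 : Ok2 par f0 Box3.unit C1 :=
  p1_0_0

theorem pt1 : PtAll2 par C1 :=
  PtAll2.of_okD hw (OkD2.cover [f0.dom,f1.dom,f2.dom,f3.dom,f4.dom,f5.dom,f6.dom,f7.dom,f8.dom,f9.dom,f10.dom]
    (.split 0 (.split 0 (.leaf 0) (.split 1 (.leaf 1) (.leaf 2))) (.split 1 (.split 0 (.leaf 3) (.leaf 4)) (.split 0 (.split 1 (.leaf 5) (.leaf 6)) (.split 1 (.leaf 7) (.split 0 (.leaf 8) (.split 1 (.leaf 9) (.leaf 10)))))))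
    (by decide +kernel)
    (List.forall_mem_cons.2 ⟨OkD2.of_ok o1_0, (List.forall_mem_cons.2 ⟨OkD2.of_ok o1_1, (List.forall_mem_cons.2 ⟨OkD2.of_ok o1_2, (List.forall_mem_cons.2 ⟨OkD2.of_ok o1_3, (List.forall_mem_cons.2 ⟨OkD2.of_ok o1_4, (List.forall_mem_cons.2 ⟨OkD2.of_ok o1_5, (List.forall_mem_cons.2 ⟨OkD2.of_ok o1_6, (List.forall_mem_cons.2 ⟨OkD2.of_ok o1_7, (List.forall_mem_cons.2 ⟨OkD2.of_ok o1_8, (List.forall_mem_cons.2 ⟨OkD2.of_ok o1_9, (List.forall_mem_cons.2 ⟨OkD2.of_ok o1_10, (fun _ h => nomatch h)⟩)⟩)⟩)⟩)⟩)⟩)⟩)⟩)⟩)⟩)⟩))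

end Crest.Agent.R163.P6
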