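import Crest.Agent.R163.Q3.D.P6.S1
import Crest.Agent.R163.Q3.D.P6.H

set_option autoImplicit false
set_option maxRecDepth 100000
set_option linter.all false
set_option Elab.async false

namespace Crest.Agent.R163.P6

theorem p1_0_0 : Ok2 par f0 Box3.unit C1 :=
  Ok2.run hw hf0 ⟨240,19,19,13,13⟩ 55
    (.chk false 0)
    (by decide +kernel)

theorem p1_1_0 : Ok2 par f1 Box3.unit C1 :=
  Ok2.run hw hf1 ⟨243,19,19,16,13⟩ 55
    (.chk false 0)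
    (by decide +kernel)

theorem p1_2_0 : Ok2 par f2 Box3.unit C1 :=
  Ok2.run hw hf2 ⟨243,19,19,16,13⟩ 55
    (.chk false 0)
    (by decide +kernel)

theorem p1_3_0 : Ok2 par f3 (((Box3.unit.l 1).r 0).l 1) (selB2 1 (selB2 0 (selB2 0 (selB2 0 C1 16779951) 63552) 2) 474) :=
  Ok2.run hw hf3 ⟨322,19,19,16,13⟩ 55
    (.chk false 0)
    (by decide +kernel)

theorem p1_3_1 : Ok2 par f3 (((Box3.unit.l 1).r 0).l 1) (selB2 0 (selB2 0 (selB2 0 (selB2 0 C1 16779951) 63552) 2) 474) :=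
  Ok2.run hw hf3 ⟨402,19,19,16,13⟩ 55
    (.split 0 (.chk false 0) (.part 3 (.chk false 0) (.split 1 (.chk false 0) (.split 2 (.split 0 (.chk false 0) (.chk false 0)) (.chk false 0)))))
    (by decide +kernel)

theorem p1_3_2 : Ok2 par f3 (((((((((Box3.unit.l 1).r 0).r 1).l 1).r 0).r 2).l 1).r 2).l 0) (selB2 0 (selB2 0 (selB2 0 (selB2 0 (selB2 0 (selB2 0 (selB2 0 C1 16779951) 63552) 2) 225) 20) 2) 2) :=
  Ok2.run hw hf3 ⟨484,19,19,16,13⟩ 55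
    (.split 2 (.chk false 0) (.split 1 (.split 0 (.chk false 0) (.chk false 0)) (.split 0 (.chk false 0) (.chk false 0))))
    (by decide +kernel)

theorem p1_3_3 : Ok2 par f3 (((((((((Box3.unit.l 1).r 0).r 1).l 1).r 0).r 2).l 1).r 2).r 0) (selB2 0 (selB2 0 (selB2 0 (selB2 0 (selB2 0 (selB2 0 (selB2 0 C1 16779951) 63552) 2) 225) 20) 2) 2) :=
  Ok2.run hw hf3 ⟨434,19,19,16,13⟩ 55
    (.chk false 0)
    (by decide +kernel)

theorem p1_3_4 : Ok2 par f3 ((((((((Box3.unit.l 1).r 0).r 1).l 1).r 0).r 2).l 1).l 2) (selB2 0 (selB2 0 (selB2 0 (selB2 0 (selB2 0 (selB2 0 (selB2 0 C1 16779951) 63552) 2) 225) 20) 2) 2) :=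
  Ok2.run hw hf3 ⟨408,19,19,16,13⟩ 55
    (.chk false 0)
    (by decide +kernel)

theorem p1_3_5 : Ok2 par f3 (((((((Box3.unit.l 1).r 0).r 1).l 1).r 0).r 2).l 1) (selB2 1 (selB2 0 (selB2 0 (selB2 0 (selB2 0 (selB2 0 (selB2 0 C1 16779951) 63552) 2) 225) 20) 2) 2) :=
  Ok2.run hw hf3 ⟨397,19,19,16,13⟩ 55
    (.chk false 0)
    (by decide +kernel)

theorem p1_3_6 : Ok2 par f3 (((((((Box3.unit.l 1).r 0).r 1).l 1).r 0).r 2).r 1) (selB2 0 (selB2 0 (selB2 0 (selB2 0 (selB2 0 (selB2 0 C1 16779951) 63552) 2) 225) 20) 2) :=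
  Ok2.run hw hf3 ⟨394,19,19,16,13⟩ 55
    (.chk false 0)
    (by decide +kernel)

theorem p1_3_7 : Ok2 par f3 ((((((Box3.unit.l 1).r 0).r 1).l 1).r 0).l 2) (selB2 0 (selB2 0 (selB2 0 (selB2 0 (selB2 0 (selB2 0 C1 16779951) 63552) 2) 225) 20) 2) :=
  Ok2.run hw hf3 ⟨377,19,19,16,13⟩ 55
    (.chk false 0)
    (by decide +kernel)

theorem p1_3_8 : Ok2 par f3 (((((Box3.unit.l 1).r 0).r 1).l 1).r 0) (selB2 1 (selB2 0 (selB2 0 (selB2 0 (selB2 0 (selB2 0 C1 16779951) 63552) 2) 225) 20) 2) :=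
  Ok2.run hw hf3 ⟨355,19,19,16,13⟩ 55
    (.chk false 0)
    (by decide +kernel)

theorem p1_3_9 : Ok2 par f3 (((((Box3.unit.l 1).r 0).r 1).l 1).l 0) (selB2 0 (selB2 0 (selB2 0 (selB2 0 (selB2 0 C1 16779951) 63552) 2) 225) 20) :=
  Ok2.run hw hf3 ⟨347,19,19,16,13⟩ 55
    (.chk false 0)
    (by decide +kernel)

theorem p1_3_10 : Ok2 par f3 ((((Box3.unit.l 1).r 0).r 1).l 1) (selB2 1 (selB2 0 (selB2 0 (selB2 0 (selB2 0 C1 16779951) 63552) 2) 225) 20) :=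
  Ok2.run hw hf3 ⟨333,19,19,16,13⟩ 55
    (.chk false 0)
    (by decide +kernel)

theorem p1_3_11 : Ok2 par f3 ((((Box3.unit.l 1).r 0).r 1).r 1) (selB2 0 (selB2 0 (selB2 0 (selB2 0 C1 16779951) 63552) 2) 225) :=
  Ok2.run hw hf3 ⟨372,19,19,16,13⟩ 55
    (.part 27 (.chk false 0) (.split 2 (.chk false 0) (.split 0 (.chk false 0) (.chk false 0))))
    (by decide +kernel)

theorem p1_3_12 : Ok2 par f3 (((Box3.unit.l 1).r 0).r 1) (selB2 1 (selB2 0 (selB2 0 (selB2 0 C1 16779951) 63552) 2) 225) :=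
  Ok2.run hw hf3 ⟨313,19,19,16,13⟩ 55
    (.chk false 0)
    (by decide +kernel)

theorem p1_3_13 : Ok2 par f3 ((Box3.unit.l 1).r 0) (selB2 1 (selB2 0 (selB2 0 C1 16779951) 63552) 2) :=
  Ok2.run hw hf3 ⟨300,19,19,16,13⟩ 55
    (.chk false 0)
    (by decide +kernel)

theorem p1_3_14 : Ok2 par f3 ((Box3.unit.l 1).l 0) (selB2 0 (selB2 0 C1 16779951) 63552) :=
  Ok2.run hw hf3 ⟨344,19,19,16,13⟩ 55
    (.part 1022 (.chk false 0) (.split 2 (.split 0 (.chk false 0) (.chk false 0)) (.chk false 0)))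
    (by decide +kernel)

theorem p1_3_15 : Ok2 par f3 (Box3.unit.l 1) (selB2 1 (selB2 0 C1 16779951) 63552) :=
  Ok2.run hw hf3 ⟨271,19,19,16,13⟩ 55
    (.chk false 0)
    (by decide +kernel)

theorem p1_3_16 : Ok2 par f3 (Box3.unit.r 1) (selB2 0 C1 16779951) :=
  Ok2.run hw hf3 ⟨313,19,19,16,13⟩ 55
    (.part 64495 (.chk false 0) (.split 1 (.part 2 (.chk false 0) (.split 0 (.chk false 0) (.chk false 0))) (.chk false 0)))
    (by decide +kernel)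

theorem p1_3_17 : Ok2 par f3 Box3.unit (selB2 1 C1 16779951) :=
  Ok2.run hw hf3 ⟨243,19,19,16,13⟩ 55
    (.chk false 0)
    (by decide +kernel)

theorem p1_4_0 : Ok2 par f4 ((((Box3.unit.l 1).r 1).l 0).l 1) (selB2 0 (selB2 0 (selB2 0 (selB2 0 C1 16777268) 132087) 65) 128) :=
  Ok2.run hw hf4 ⟨373,19,19,13,13⟩ 55
    (.part 222 (.chk false 0) (.split 0 (.split 1 (.chk false 0) (.chk false 0)) (.chk false 0)))
    (by decide +kernel)

theorem p1_4_1 : Ok2 par f4 ((((Box3.unit.l 1).r 1).l 0).r 1) (selB2 0 (selB2 0 (selB2 0 (selB2 0 C1 16777268) 132087) 65) 128) :=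
  Ok2.run hw hf4 ⟨385,19,19,13,13⟩ 55
    (.part 99 (.chk false 0) (.split 0 (.part 11 (.chk false 0) (.split 2 (.chk false 0) (.split 1 (.chk false 0) (.chk false 0)))) (.chk false 0)))
    (by decide +kernel)

theorem p1_4_2 : Ok2 par f4 (((Box3.unit.l 1).r 1).l 0) (selB2 1 (selB2 0 (selB2 0 (selB2 0 C1 16777268) 132087) 65) 128) :=
  Ok2.run hw hf4 ⟨311,19,19,13,13⟩ 55
    (.chk false 0)
    (by decide +kernel)

theorem p1_4_3 : Ok2 par f4 (((Box3.unit.l 1).r 1).r 0) (selB2 0 (selB2 0 (selB2 0 C1 16777268) 132087) 65) :=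
  Ok2.run hw hf4 ⟨311,19,19,13,13⟩ 55
    (.chk false 0)
    (by decide +kernel)

theorem p1_4_4 : Ok2 par f4 ((Box3.unit.l 1).r 1) (selB2 1 (selB2 0 (selB2 0 C1 16777268) 132087) 65) :=
  Ok2.run hw hf4 ⟨283,19,19,13,13⟩ 55
    (.chk false 0)
    (by decide +kernel)

theorem p1_4_5 : Ok2 par f4 ((Box3.unit.l 1).l 1) (selB2 0 (selB2 0 C1 16777268) 132087) :=
  Ok2.run hw hf4 ⟨340,19,19,13,13⟩ 55
    (.part 2042 (.chk false 0) (.split 1 (.part 2 (.chk false 0) (.split 0 (.chk false 0) (.chk false 0))) (.part 1 (.chk false 0) (.split 0 (.chk false 0) (.chk false 0)))))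
    (by decide +kernel)

theorem p1_4_6 : Ok2 par f4 (Box3.unit.l 1) (selB2 1 (selB2 0 C1 16777268) 132087) :=
  Ok2.run hw hf4 ⟨270,19,19,13,13⟩ 55
    (.chk false 0)
    (by decide +kernel)

theorem p1_4_7 : Ok2 par f4 ((((((Box3.unit.r 1).l 1).l 0).l 1).r 0).l 1) (selB2 0 (selB2 0 (selB2 0 (selB2 0 (selB2 0 C1 16777268) 32444) 8) 46) 6) :=
  Ok2.run hw hf4 ⟨413,19,19,13,13⟩ 55
    (.split 2 (.part 4 (.chk false 0) (.split 0 (.chk false 0) (.chk false 0))) (.part 3 (.chk false 0) (.split 0 (.split 1 (.chk false 0) (.chk false 0)) (.chk false 0))))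
    (by decide +kernel)

theorem p1_4_8 : Ok2 par f4 ((((((Box3.unit.r 1).l 1).l 0).l 1).r 0).r 1) (selB2 0 (selB2 0 (selB2 0 (selB2 0 (selB2 0 C1 16777268) 32444) 8) 46) 6) :=
  Ok2.run hw hf4 ⟨359,19,19,13,13⟩ 55
    (.chk false 0)
    (by decide +kernel)

theorem p1_4_9 : Ok2 par f4 (((((Box3.unit.r 1).l 1).l 0).l 1).r 0) (selB2 1 (selB2 0 (selB2 0 (selB2 0 (selB2 0 C1 16777268) 32444) 8) 46) 6) :=
  Ok2.run hw hf4 ⟨340,19,19,13,13⟩ 55
    (.chk false 0)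
    (by decide +kernel)

theorem p1_4_10 : Ok2 par f4 (((((Box3.unit.r 1).l 1).l 0).l 1).l 0) (selB2 0 (selB2 0 (selB2 0 (selB2 0 C1 16777268) 32444) 8) 46) :=
  Ok2.run hw hf4 ⟨420,19,19,13,13⟩ 55
    (.part 29 (.chk false 0) (.split 1 (.chk false 0) (.split 0 (.chk false 0) (.split 2 (.chk false 0) (.split 1 (.chk false 0) (.chk false 0))))))
    (by decide +kernel)

theorem p1_4_11 : Ok2 par f4 ((((Box3.unit.r 1).l 1).l 0).l 1) (selB2 1 (selB2 0 (selB2 0 (selB2 0 C1 16777268) 32444) 8) 46) :=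
  Ok2.run hw hf4 ⟨327,19,19,13,13⟩ 55
    (.chk false 0)
    (by decide +kernel)

theorem p1_4_12 : Ok2 par f4 ((((((((Box3.unit.r 1).l 1).l 0).r 1).l 0).l 1).r 2).l 0) (selB2 0 (selB2 0 (selB2 0 (selB2 0 (selB2 0 C1 16777268) 32444) 8) 348) 3) :=
  Ok2.run hw hf4 ⟨408,19,19,13,13⟩ 55
    (.chk false 0)
    (by decide +kernel)


end Crest.Agent.R163.P6
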